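import Crest.Agent.X261.Rn93.Bas
import Crest.Agent.X261.Lim.Defs
import Crest.Agent.X261.Fol.Loc

/-!
# Row 261, EN (helper54), file `Geo`: geometry of the foliated charts

* `dWt_ne`, `not_mem_Z`, `compl_eq` : the foliated charts cover the complement of `F.Z`;
* `dsc`, `plr`, `thin`, `bad_inv`;
* `lam`, `lam_psh`, `lam_eq` : the log-weight of the frame `dt`.
-/

set_option autoImplicit false
set_option linter.unusedSectionVars false
set_option linter.dupNamespace false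

open Set Filter Topology Metric Matrix

namespace Crest.Agent.X261.En.Geo

open Crest.Agent.R275.Geo Crest.Agent.R275.Core144
open Crest.Agent.R273.Defs_333 Crest.Agent.R273.UCov_914
open Crest.Agent.R273.Fock_243 (FI Gam)
open Crest.Agent.R281.ThnM_280 (SThM)
open Crest.Agent.X261.Psh Crest.Agent.X261.Ans Crest.Agent.X261.Lim
open Crest.Agent.X261.Top (HolV Tube FCh Fol dW upF Cod2)

noncomputable section

section Gen

variable {n p r : ℕ} {M : Type} [TopologicalSpace M] {B : Atl n M} {G : Type} [Group G]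
  [MulAction G M] {𝒯 : Tube B G p} {ε : B.ι → M → FI n → ℂ}

theorem t_an (C : FCh 𝒯 r ε) {y : M} (hy : y ∈ C.φ.source) {i : B.ι} (hi : y ∈ (B.e i).source) :
    AnalyticAt ℂ (fun z => (C.φ ((B.e i).symm z)).1) (B.e i y) :=
  Fol.holV_an C.φ.open_source C.hol₁ hy hi

theorem t_surj (C : FCh 𝒯 r ε) {y : M} (hy : y ∈ C.φ.source) :
    Function.Surjective (fderiv ℂ (fun z => (C.φ ((B.e C.i).symm z)).1) (B.e C.i y)) := by
  have h0 := (t_an C hy (C.sub hy)).differentiableAt.hasFDerivAt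
  have hq := C.φ.open_target.mem_nhds (C.φ.map_source hy)
  have h1 := (C.hol'.differentiableAt hq).hasFDerivAt
  have e : B.e C.i (C.φ.symm (C.φ y)) = B.e C.i y := by rw [C.φ.left_inv hy]
  rw [← e] at h0
  have h2 := (h0.comp (C.φ y) h1).congr_of_eventuallyEq (f₁ := Prod.fst) (by
    filter_upwards [hq] with q hq
    rw [Function.comp_apply, (B.e C.i).left_inv (C.sub (C.φ.map_target hq)), C.φ.right_inv hq])
  have h3 := h2.unique hasFDerivAt_fst
  rw [e] at h3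
  intro w
  exact ⟨_, DFunLike.congr_fun h3 (w, 0)⟩

theorem dWt_ne (hn : p + r = n) (C : FCh 𝒯 r ε) {y : M} (hy : y ∈ C.φ.source) :
    dW B C.i (fun y => (C.φ y).1) y ≠ 0 := by
  rw [Frb.Main.dW_eq (t_an C hy (C.sub hy)).differentiableAt]
  exact Frb.Main.wdg_row_ne hn (t_surj C hy)

theorem eps_ne (hn : p + r = n) (C : FCh 𝒯 r ε) {y : M} (hy : y ∈ C.φ.source) : ε C.i y ≠ 0 := by
  rw [C.gen y hy]
  exact smul_ne_zero (C.c_ne y hy) (dWt_ne hn C hy)

theorem dsc_of {Z : Set M} (h : Cod2 B Z) : Dsc (HA.of B) Z := h.2.2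

theorem thin_of {S : Set M} (h : SThM B S) : Thin (HA.of B) S := h

theorem thin (𝒯 : Tube B G p) : Thin (HA.of B) (𝒯.M0ᶜ ∪ 𝒯.Bad) :=
  thin_of (𝒯.thin.union 𝒯.bad_thin)

theorem bad_inv (𝒯 : Tube B G p) (g : G) (x : M) (hx : x ∈ 𝒯.M0ᶜ ∪ 𝒯.Bad) :
    g • x ∈ 𝒯.M0ᶜ ∪ 𝒯.Bad :=
  hx.imp (fun h h' => h (by simpa using 𝒯.inv g⁻¹ _ h')) (𝒯.bad_inv g x)

variable {L : LB B}

/-- the log-weight of the frame `dt` -/
def lam (h : HM L) (C : FCh 𝒯 r ε) (x : M) : ℝ :=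
  Real.log (‖C.c x‖ ^ 2) + h.wt C.i (B.e C.i x)

theorem lam_def (h : HM L) (C : FCh 𝒯 r ε) {x : M} (hx : x ∈ C.φ.source) :
    lam h C x = 2 * Real.log ‖C.c x‖ - Real.log (h.w C.i x) := by
  rw [lam, HM.wt, (B.e C.i).left_inv (C.sub hx), Real.log_pow]
  push_cast
  ring

theorem lam_psh (h : HM L) (C : FCh 𝒯 r ε) {O : Set M} (hO : IsOpen O) (hs : O ⊆ C.φ.source) :
    WP (HA.of B) (fun j => h.wt j) O fun x => ((-lam h C x : ℝ) : EReal) := by
  intro (j : B.ι)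
  have hO' : IsOpen (ch (HA.of B) j O) := (B.e j).isOpen_inter_preimage_symm hO
  have k1 : DifferentiableOn ℂ (fun z => C.c ((B.e j).symm z)) (ch (HA.of B) j O) :=
    Brg.diffOn_of_hol fun x hx _ =>
      (Brg.holAt_iff C.φ.open_source).1 C.c_hol x (hs hx) (C.sub (hs hx))
  have k2 : DifferentiableOn ℂ (fun z => L.g j C.i ((B.e j).symm z)) (ch (HA.of B) j O) :=
    DifferentiableOn.mono (L.hol j C.i) fun z hz => ⟨hz.1, C.sub (hs hz.2)⟩
  have k3 := k2.mul (k1.inv fun z hz => C.c_ne _ (hs hz.2))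
  refine ((isPsh_log_norm hO' k3).smul zero_le_two).congr fun z hz => ?_
  have hj := (B.e j).map_target hz.1
  have hc : C.c ((B.e j).symm z) ≠ 0 := C.c_ne _ (hs hz.2)
  have hg := L.ne_zero j C.i ((B.e j).symm z)
  have hz2 : (B.e j).symm z ∈ C.φ.source := hs hz.2
  have e := h.tr j C.i _ ⟨hj, C.sub hz2⟩
  change ((2 : ℝ) : EReal) * ENNReal.log ‖L.g j C.i ((B.e j).symm z) * (C.c ((B.e j).symm z))⁻¹‖ₑ =
    ((-lam h C ((B.e j).symm z) : ℝ) : EReal) + ((h.wt j z : ℝ) : EReal)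
  rw [log_enorm_of_ne (mul_ne_zero hg (inv_ne_zero hc)), lam_def h C hz2, e, HM.wt, ← EReal.coe_mul, ← EReal.coe_add, norm_mul, norm_inv,
    Real.log_mul (norm_ne_zero_iff.2 hg) (inv_ne_zero (norm_ne_zero_iff.2 hc)), Real.log_inv,
    Real.log_mul (pow_ne_zero 2 (norm_ne_zero_iff.2 hg)) (h.pos j _ hj).ne', Real.log_pow]
  congr 1
  push_cast
  ring

/-- comparison of the frames `dt`, `dt'` of two foliated charts through a third frame `df` -/
theorem lam_eq (hn : p + r = n) (h : HM L)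
    (tr : ∀ i j, ∀ y ∈ (B.e i).source ∩ (B.e j).source,
      ε i y = (L.g i j y)⁻¹ • (Gam (Jm B i j y)ᵀ *ᵥ ε j y))
    (C C' : FCh 𝒯 r ε) {x : M} (hx : x ∈ C.φ.source) (hx' : x ∈ C'.φ.source) {f : M → Cn p}
    (hf : DifferentiableAt ℂ (fun z => f ((B.e C'.i).symm z)) (B.e C'.i x)) {d d' : ℂ}
    (hd0 : d ≠ 0) (hd0' : d' ≠ 0)
    (hd : dW B C.i f x = d • dW B C.i (fun y => (C.φ y).1) x)
    (hd' : dW B C'.i f x = d' • dW B C'.i (fun y => (C'.φ y).1) x) :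
    lam h C x - 2 * Real.log ‖d‖ = lam h C' x - 2 * Real.log ‖d'‖ := by
  have hij : x ∈ (B.e C.i).source ∩ (B.e C'.i).source := ⟨C.sub hx, C'.sub hx'⟩
  have h1 := tr _ _ x hij
  have h2 := Rn93.dW_tr hij hf
  rw [hd, hd', Matrix.mulVec_smul] at h2
  rw [C.gen x hx, C'.gen x hx', Matrix.mulVec_smul, smul_smul] at h1
  have h3 : (d' * C.c x) • dW B C.i (fun y => (C.φ y).1) x =
      ((L.g C.i C'.i x)⁻¹ * C'.c x * d) • dW B C.i (fun y => (C.φ y).1) x := by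
    rw [mul_smul, h1, mul_smul _ d, h2, smul_comm]
  have h4 := smul_left_injective ℂ (dWt_ne hn C hx) h3
  have hg := norm_ne_zero_iff.2 (L.ne_zero C.i C'.i x)
  have h5 := congrArg (fun a : ℂ => Real.log ‖a‖) h4
  simp only [norm_mul, norm_inv] at h5
  rw [Real.log_mul (norm_ne_zero_iff.2 hd0') (norm_ne_zero_iff.2 (C.c_ne x hx)),
    Real.log_mul (mul_ne_zero (inv_ne_zero hg) (norm_ne_zero_iff.2 (C'.c_ne x hx')))
      (norm_ne_zero_iff.2 hd0),
    Real.log_mul (inv_ne_zero hg) (norm_ne_zero_iff.2 (C'.c_ne x hx')), Real.log_inv] at h5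
  rw [lam_def h C hx, lam_def h C' hx', h.tr _ _ x hij,
    Real.log_mul (pow_ne_zero 2 hg) (h.pos _ x hij.1).ne', Real.log_pow]
  push_cast
  linarith

/-- the same with `dt = b df`, `dt' = b' df` -/
theorem lam_sub (hn : p + r = n) (h : HM L)
    (tr : ∀ i j, ∀ y ∈ (B.e i).source ∩ (B.e j).source,
      ε i y = (L.g i j y)⁻¹ • (Gam (Jm B i j y)ᵀ *ᵥ ε j y))
    (C C' : FCh 𝒯 r ε) {x : M} (hx : x ∈ C.φ.source) (hx' : x ∈ C'.φ.source) {f : M → Cn p}
    (hf : DifferentiableAt ℂ (fun z => f ((B.e C'.i).symm z)) (B.e C'.i x)) {b b' : ℂ}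
    (hb : dW B C.i (fun y => (C.φ y).1) x = b • dW B C.i f x)
    (hb' : dW B C'.i (fun y => (C'.φ y).1) x = b' • dW B C'.i f x) :
    lam h C x - lam h C' x = Real.log (Complex.normSq b') - Real.log (Complex.normSq b) := by
  have h0 : b ≠ 0 := fun e => dWt_ne hn C hx (by rw [hb, e, zero_smul])
  have h0' : b' ≠ 0 := fun e => dWt_ne hn C' hx' (by rw [hb', e, zero_smul])
  have := lam_eq hn h tr C C' hx hx' hf (inv_ne_zero h0) (inv_ne_zero h0')
    (by rw [hb, inv_smul_smul₀ h0]) (by rw [hb', inv_smul_smul₀ h0'])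
  rw [norm_inv, norm_inv, Real.log_inv, Real.log_inv] at this
  rw [Complex.normSq_eq_norm_sq, Complex.normSq_eq_norm_sq, Real.log_pow, Real.log_pow]
  push_cast
  linarith

end Gen

section Cover

variable {n p r : ℕ} {X : Type} [TopologicalSpace X] {A : Atl n X} {G : Type} [Group G]
  {D : MonD A G}

theorem not_mem_Z (hn : p + r = n) (F : Fol D p) (C : FCh F.T r (upF D F.e)) {y : D.cov G}
    (hy : y ∈ C.φ.source) : y ∉ F.Z := fun h => eps_ne hn C hy (h C.i.1)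

/-- the inner parts of the foliated charts cover the complement of `F.Z` -/
theorem compl_eq [T2Space X] (hn : p + r = n) (F : Fol D p)
    (O : FCh F.T r (upF D F.e) → Set (D.cov G)) (h1 : ∀ C, O C ⊆ C.φ.source)
    (h2 : ∀ C, ∀ x ∈ C.φ.source, C.φ x = 0 → x ∈ O C) : (⋃ C, O C)ᶜ = F.Z := by
  ext y
  rw [mem_compl_iff, mem_iUnion]
  refine ⟨fun h => by_contra fun hy => h ?_, fun h ⟨C, hC⟩ => not_mem_Z hn F C (h1 C hC) h⟩
  obtain ⟨q, hq⟩ := (D.atl G).cover y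
  obtain ⟨C, k1, k2, -⟩ := Frb.Main.fch hn F.T (upF D F.e) q (fun S => F.tom.hol q.1 S)
    (fun y S hS => F.tom.deg q.1 _ S hS) (fun x' hx' y hy hyq => F.gen x' hx' q y hy hyq) hq
    ((Frb.Main.mem_Z F hq.1).not.1 hy) univ_mem
  exact ⟨C, h2 C y k1 k2⟩

theorem dsc_Z (hn : p + r = n) (F : Fol D p) : Dsc (HA.of (D.atl G)) F.Z :=
  dsc_of (Frb.Main.cod2 hn F)

theorem plr_Z (hn : p + r = n) (F : Fol D p) : Plr (HA.of (D.atl G)) F.Z := by
  intro (q : A.ι × G) z₀ hz₀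
  have hZ : ∀ z ∈ (A.e q.1).target, ((D.atl G).e q).symm z ∈ F.Z ↔
      F.e q.1 ((A.e q.1).symm z) = 0 := fun z hz =>
    Frb.Main.mem_Z F (i := q.1) (y := ((D.atl G).e q).symm z) ((A.e q.1).map_target hz)
  refine ⟨(A.e q.1).target, fun z => ENNReal.log ‖F.e q.1 ((A.e q.1).symm z)‖ₑ,
    (A.e q.1).open_target, hz₀, isPsh_log_norm (A.e q.1).open_target
      (differentiableOn_pi.2 fun S => (Frb.Main.e_an F q.1 S).differentiableOn),
    fun z hz => ?_, fun z _ hz h => by simp [(hZ z hz).1 h]⟩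
  have h1 := ((Frb.Main.cod2 hn F).2.1 q).dense_compl z
  rw [mem_closure_iff_frequently] at h1
  refine (h1.and_eventually ((A.e q.1).open_target.mem_nhds hz)).mono fun w hw => ?_
  exact (log_enorm_of_ne fun h => hw.1 ⟨hw.2, (hZ w hw.2).2 h⟩).trans_ne (EReal.coe_ne_bot _)

theorem dsc [T2Space X] (hn : p + r = n) (F : Fol D p)
    (O : FCh F.T r (upF D F.e) → Set (D.cov G)) (h1 : ∀ C, O C ⊆ C.φ.source)
    (h2 : ∀ C, ∀ x ∈ C.φ.source, C.φ x = 0 → x ∈ O C) : Dsc (HA.of (D.atl G)) (⋃ C, O C)ᶜ :=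
  compl_eq hn F O h1 h2 ▸ dsc_Z hn F

theorem plr [T2Space X] (hn : p + r = n) (F : Fol D p)
    (O : FCh F.T r (upF D F.e) → Set (D.cov G)) (h1 : ∀ C, O C ⊆ C.φ.source)
    (h2 : ∀ C, ∀ x ∈ C.φ.source, C.φ x = 0 → x ∈ O C) : Plr (HA.of (D.atl G)) (⋃ C, O C)ᶜ :=
  compl_eq hn F O h1 h2 ▸ plr_Z hn F

end Cover

end

end Crest.Agent.X261.En.Geo
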