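import Crest.Agent.X261.Ans.Man3
import Crest.Agent.X261.Ans.HkB
import Crest.Agent.X261.Psh.Cvx
import Crest.Agent.X261.BT.Defs

/-!
# Row 261, EN (helper54), file `Fh`: Harnack inequality along the fibres of a tube

* `qp_isPsh` : the potentials of a continuous quasi-psh function are psh;
* `prod_flat` : product coordinates for a holomorphic submersion;
* `fh` : the fibre Harnack inequality, uniformly in a tube.
-/

set_option autoImplicit false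
set_option linter.unusedSectionVars false
set_option linter.dupNamespace false

open Set Filter Topology Metric

namespace Crest.Agent.X261.En.Fh

open Crest.Agent.R275.Geo Crest.Agent.R275.Core144
open Crest.Agent.R281.Kp_487 (KP pot)
open Crest.Agent.R281.ThnM_280 (Crit)
open Crest.Agent.X261.Psh Crest.Agent.X261.BT Crest.Agent.X261.Ans
open Crest.Agent.X261.Top (HolV)

noncomputable section

variable {n p : ℕ} {M : Type} [TopologicalSpace M] {A : Atl n M} {H : KP A} {T : Set M}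
  {π : M → Cn p}

theorem qp_isPsh {U : Set M} {v : M → ℝ} (h : QP H U v) (i : A.ι) :
    IsPsh (chU A U i) fun z => (pot H v i z : EReal) :=
  isPsh_of_pshL (isOpen_chU h.op i) (contOn_pot h.cont i) (h.psh i)

/-- product coordinates for a holomorphic submersion -/
theorem prod_flat {E F : Type} [NormedAddCommGroup E] [NormedSpace ℂ E] [FiniteDimensional ℂ E]
    [NormedAddCommGroup F] [NormedSpace ℂ F] [FiniteDimensional ℂ F] {g : E → F} {x : E}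
    (hg : AnalyticAt ℂ g x) (hs : Function.Surjective (fderiv ℂ g x)) :
    ∃ (s : ℕ) (L : E →L[ℂ] (Fin s → ℂ)) (σ : F × (Fin s → ℂ) → E), AnalyticAt ℂ σ (g x, L x) ∧
      (∀ᶠ y in 𝓝 x, σ (g y, L y) = y) ∧ ∀ᶠ q in 𝓝 (g x, L x), g (σ q) = q.1 ∧ L (σ q) = q.2 := by
  obtain ⟨s, L, hsd, hL⟩ := Rg.exists_compl hs
  have hG : AnalyticAt ℂ (fun y => (g y, L y)) x := hg.prod (L.analyticAt x)
  have hG' : HasFDerivAt (fun y => (g y, L y)) ((fderiv ℂ g x).prod L) x :=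
    hg.differentiableAt.hasFDerivAt.prodMk L.hasFDerivAt
  obtain ⟨σ, h0, h1, h2⟩ := Rg.exists_inv hG (by
      rw [hG'.fderiv, injective_iff_map_eq_zero]
      exact fun v hv => hL v (congrArg Prod.fst hv) (congrArg Prod.snd hv))
    (by rw [Module.finrank_prod, ← hsd]; simp)
  exact ⟨s, L, σ, h0, h1, h2.mono fun q hq => ⟨congrArg Prod.fst hq, congrArg Prod.snd hq⟩⟩

variable (H T π) in
/-- propagation of smallness along the fibres near the fibre over `t₀` -/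
def EP (t₀ : Cn p) (O O' : Set M) : Prop :=
  ∃ θ C : ℝ, 0 < θ ∧ θ ≤ 1 ∧ 0 ≤ C ∧ ∀ᶠ t in 𝓝 t₀, ∀ v, QP H T v → ∀ a b : ℝ, a ≤ b →
    (∀ y ∈ T, π y = t → v y ≤ b) → (∀ y ∈ T, π y = t → y ∈ O → v y ≤ a) →
    ∀ y ∈ T, π y = t → y ∈ O' → v y ≤ b - θ * (b - a) + C

variable {t₀ : Cn p} {O O' O'' : Set M}

theorem EP.of_subset (h : O' ⊆ O) : EP H T π t₀ O O' :=
  ⟨1, 0, one_pos, le_rfl, le_rfl, Eventually.of_forall fun t v _ a b _ _ h2 y hy hy' hy'' => by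
    simpa using h2 y hy hy' (h hy'')⟩

theorem EP.trans (h : EP H T π t₀ O O') (h' : EP H T π t₀ O' O'') : EP H T π t₀ O O'' := by
  obtain ⟨θ, C, h1, h2, h3, h4⟩ := h
  obtain ⟨θ', C', h1', h2', h3', h4'⟩ := h'
  refine ⟨θ' * θ, θ' * C + C', by positivity, by nlinarith, by positivity, ?_⟩
  filter_upwards [h4, h4'] with t h4 h4' v hv a b hab hb ha y hy hy' hy''
  have h5 := h4' v hv (min b (b - θ * (b - a) + C)) b (min_le_left _ _) hb (fun y hy hy' hy'' =>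
    le_min (hb y hy hy') (h4 v hv a b hab hb ha y hy hy' hy'')) y hy hy' hy''
  have h6 := mul_le_mul_of_nonneg_left (min_le_right b (b - θ * (b - a) + C)) h1'.le
  linarith

theorem EP.union (h : EP H T π t₀ O O') (h' : EP H T π t₀ O O'') :
    EP H T π t₀ O (O' ∪ O'') := by
  obtain ⟨θ, C, h1, h2, h3, h4⟩ := h
  obtain ⟨θ', C', h1', h2', h3', h4'⟩ := h'
  refine ⟨min θ θ', max C C', lt_min h1 h1', (min_le_left _ _).trans h2,
    h3.trans (le_max_left _ _), ?_⟩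
  filter_upwards [h4, h4'] with t h4 h4' v hv a b hab hb ha y hy hy' hy''
  have hba : 0 ≤ b - a := by linarith
  rcases hy'' with hy'' | hy''
  · linarith [h4 v hv a b hab hb ha y hy hy' hy'',
      mul_le_mul_of_nonneg_right (min_le_left θ θ') hba, le_max_left C C']
  · linarith [h4' v hv a b hab hb ha y hy hy' hy'',
      mul_le_mul_of_nonneg_right (min_le_right θ θ') hba, le_max_right C C']

theorem ep_conn {Z₀ : Set M} (hc : IsPreconnected Z₀)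
    (hM : ∀ z ∈ Z₀, ∃ V ∈ 𝓝 z, ∀ O', IsOpen O' → (O' ∩ V ∩ Z₀).Nonempty → EP H T π t₀ O' V)
    (hO : IsOpen O) (hne : (O ∩ Z₀).Nonempty) : ∀ z ∈ Z₀, ∃ N ∈ 𝓝 z, EP H T π t₀ O N := by
  intro z hz
  by_contra hcon
  obtain ⟨x, hx, ⟨N, hN, h1⟩, V, hV, h2, h3⟩ := hc {z | ∃ N ∈ 𝓝 z, EP H T π t₀ O N}
    {z | ∃ V ∈ 𝓝 z, (∀ O', IsOpen O' → (O' ∩ V ∩ Z₀).Nonempty → EP H T π t₀ O' V) ∧
      ¬ EP H T π t₀ O V}
    (isOpen_iff_mem_nhds.2 fun x ⟨N, hN, h⟩ =>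
      mem_of_superset (eventually_mem_nhds_iff.2 hN) fun y hy => ⟨N, hy, h⟩)
    (isOpen_iff_mem_nhds.2 fun x ⟨N, hN, h⟩ =>
      mem_of_superset (eventually_mem_nhds_iff.2 hN) fun y hy => ⟨N, hy, h⟩)
    (fun x hx => by
      obtain ⟨V, hV, h⟩ := hM x hx
      by_cases h' : EP H T π t₀ O V
      · exact Or.inl ⟨V, hV, h'⟩
      · exact Or.inr ⟨V, hV, h, h'⟩)
    (by
      obtain ⟨x, hx⟩ := hne
      exact ⟨x, hx.2, O, hO.mem_nhds hx.1, EP.of_subset subset_rfl⟩)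
    (by
      obtain ⟨V, hV, h⟩ := hM z hz
      exact ⟨z, hz, V, hV, h, fun h' => hcon ⟨V, hV, h'⟩⟩)
  exact h3 ((h1.trans (EP.of_subset interior_subset)).trans
    (h2 _ isOpen_interior ⟨x, ⟨mem_interior_iff_mem_nhds.2 hN, mem_of_mem_nhds hV⟩, hx⟩))

/-- the local step -/
theorem ep_loc (hT : IsOpen T) (hol : HolV A T π) (subm : Crit A T π = ∅) {z : M} (hz : z ∈ T)
    (hzt : π z = t₀) :
    ∃ V ∈ 𝓝 z, ∀ O', IsOpen O' → (O' ∩ V ∩ {y | y ∈ T ∧ π y = t₀}).Nonempty →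
      EP H T π t₀ O' V := by
  obtain ⟨i, hi⟩ := A.cover z
  have hs := Brg.subm_of_crit hT hol subm hz
  have hg : AnalyticAt ℂ (fun w => π ((A.e i).symm w)) (A.e i z) := hs.1.2 i () hi (mem_univ _)
  obtain ⟨s, L, σ, h0, h1, h2⟩ := prod_flat hg (hs.2 i () hi (mem_univ _))
  rw [(A.e i).left_inv hi, hzt] at h0 h2
  set c := L (A.e i z) with hc
  have hσ0 : σ (t₀, c) = A.e i z := by
    have := h1.self_of_nhds
    rwa [(A.e i).left_inv hi, hzt] at this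
  have hch : chU A T i ∈ 𝓝 (A.e i z) := (isOpen_chU hT i).mem_nhds (mem_chU hi hz)
  have hwt : ContinuousAt (H.wt i) (A.e i z) :=
    (H.sm i).continuousOn.continuousAt ((A.e i).open_target.mem_nhds ((A.e i).map_source hi))
  have ht : Tendsto σ (𝓝 (t₀, c)) (𝓝 (A.e i z)) := hσ0 ▸ h0.continuousAt.tendsto
  have h3 : ∀ᶠ q in 𝓝 (t₀, c), |H.wt i (σ q) - H.wt i (A.e i z)| < 1 :=
    ht.eventually (hwt.eventually (ball_mem_nhds _ one_pos))
  obtain ⟨δ, hδ, h4⟩ := Metric.eventually_nhds_iff_ball.1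
    (((h2.and h0.eventually_analyticAt).and (ht.eventually hch)).and h3)
  have hcont : ContinuousAt (fun y => (π y, L (A.e i y))) z :=
    hs.1.1.prodMk (L.continuous.continuousAt.comp ((A.e i).continuousAt hi))
  have h5 : ∀ᶠ y in 𝓝 z, (π y, L (A.e i y)) ∈ ball (t₀, c) (δ / 2) :=
    hcont.eventually (by rw [← hzt]; exact ball_mem_nhds _ (half_pos hδ))
  have h6 : ∀ᶠ y in 𝓝 z, σ (π y, L (A.e i y)) = A.e i y := by
    filter_upwards [((A.e i).continuousAt hi).eventually h1, (A.e i).open_source.mem_nhds hi]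
      with y hy hy'
    rwa [(A.e i).left_inv hy'] at hy
  refine ⟨_, (h5.and h6).and ((A.e i).open_source.mem_nhds hi), ?_⟩
  rintro O' hO' ⟨y₁, ⟨hy1, ⟨hy2, hy3⟩, hy4⟩, hy5, hy6⟩
  rw [hy6] at hy2 hy3
  have hb : ∀ {t : Cn p} {w : Fin s → ℂ}, t ∈ ball t₀ δ → w ∈ ball c δ → (t, w) ∈ ball (t₀, c) δ :=
    fun h h' => by rw [← ball_prod_same]; exact ⟨h, h'⟩
  have hw1 : L (A.e i y₁) ∈ ball c (δ / 2) := by
    rw [← ball_prod_same] at hy2
    exact hy2.2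
  have hw1' : L (A.e i y₁) ∈ ball c δ := ball_subset_ball (by linarith) hw1
  have h7 := h4 _ (hb (mem_ball_self hδ) hw1')
  have h8 : ∀ᶠ q in 𝓝 (t₀, L (A.e i y₁)), (A.e i).symm (σ q) ∈ O' := by
    refine (((A.e i).continuousAt_symm h7.1.2.1).comp h7.1.1.2.continuousAt).eventually
      (hO'.mem_nhds ?_)
    rwa [Function.comp_apply, hy3, (A.e i).left_inv hy4]
  obtain ⟨η, hη, h9⟩ := Metric.eventually_nhds_iff_ball.1 h8
  obtain ⟨θ, k1, k2, k3⟩ := Hk.conn_prp (D := ball c δ) isOpen_ball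
    (convex_ball c δ).isPreconnected (O := ball (L (A.e i y₁)) η) isOpen_ball
    ⟨_, mem_ball_self hη, hw1'⟩ (isCompact_closedBall c (δ / 2))
    (closedBall_subset_ball (by linarith))
  refine ⟨θ, 2, k1, k2, by norm_num, ?_⟩
  filter_upwards [ball_mem_nhds t₀ hδ, ball_mem_nhds t₀ hη] with t ht1 ht2 v hv a b hab hb' ha y hy
    hyt ⟨⟨hy7, hy8⟩, hy9⟩
  rw [hyt] at hy7 hy8
  have hu : IsPsh (ball c δ) fun w => (pot H v i (σ (t, w)) : EReal) :=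
    Hol.comp_hol (isOpen_chU hT i) (qp_isPsh hv i) (φ := fun w => σ (t, w))
      (fun w hw => ((h4 _ (hb ht1 hw)).1.1.2.differentiableAt.comp w
        ((differentiableAt_const t).prodMk differentiableAt_id)).differentiableWithinAt)
      fun w hw => (h4 _ (hb ht1 hw)).1.2
  have k4 := k3 _ (a + (H.wt i (A.e i z) + 1)) (b + (H.wt i (A.e i z) + 1)) hu (by linarith)
    (fun w hw => EReal.coe_le_coe_iff.2 (by
      have e := h4 _ (hb ht1 hw)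
      have := hb' _ e.1.2.2 e.1.1.1.1
      rw [pot_apply]
      linarith [(abs_lt.1 e.2).2]))
    (fun w hw hw' => EReal.coe_le_coe_iff.2 (by
      have e := h4 _ (hb ht1 hw)
      have := ha _ e.1.2.2 e.1.1.1.1 (h9 (t, w) (by rw [← ball_prod_same]; exact ⟨ht2, hw'⟩))
      rw [pot_apply]
      linarith [(abs_lt.1 e.2).2]))
    (L (A.e i y)) (by
      rw [← ball_prod_same] at hy7
      exact ball_subset_closedBall hy7.2)
  have e := (h4 _ (ball_subset_ball (by linarith) hy7)).2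
  rw [EReal.coe_le_coe_iff, pot_apply, hy8, (A.e i).left_inv hy9] at k4
  rw [hy8] at e
  linarith [(abs_lt.1 e).1]

theorem fib_compact [T2Space M] (cont : ContinuousOn π T)
    (prop : ∀ r < (1 : ℝ), IsCompact {y | y ∈ T ∧ ‖π y‖ ≤ r}) {K : Set (Cn p)} (hK : IsCompact K)
    (h1 : K ⊆ ball 0 1) : IsCompact {y | y ∈ T ∧ π y ∈ K} := by
  obtain ⟨r, hr, h2⟩ := exists_lt_subset_ball hK.isClosed h1
  have h3 := prop r hr
  have h4 : IsClosed ({y | y ∈ T ∧ ‖π y‖ ≤ r} ∩ π ⁻¹' K) :=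
    (cont.mono fun y hy => hy.1).preimage_isClosed_of_isClosed h3.isClosed hK.isClosed
  convert h3.of_isClosed_subset h4 inter_subset_left using 1
  ext y
  exact ⟨fun h => ⟨⟨h.1, (mem_ball_zero_iff.1 (h2 h.2)).le⟩, h.2⟩, fun h => ⟨h.1.1, h.2⟩⟩

/-- nearby fibres stay in a neighbourhood of the central fibre -/
theorem ev_fib [T2Space M] (cont : ContinuousOn π T)
    (prop : ∀ r < (1 : ℝ), IsCompact {y | y ∈ T ∧ ‖π y‖ ≤ r}) (h1 : ‖t₀‖ < 1) {U : Set M}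
    (hU : IsOpen U) (hs : ∀ y ∈ T, π y = t₀ → y ∈ U) :
    ∀ᶠ t in 𝓝 t₀, ∀ y ∈ T, π y = t → y ∈ U := by
  obtain ⟨r, hr1, hr2⟩ := exists_between h1
  have h2 := ((prop r hr2).diff hU).image_of_continuousOn (cont.mono fun y hy => hy.1.1)
  have h3 : t₀ ∈ (π '' ({y | y ∈ T ∧ ‖π y‖ ≤ r} \ U))ᶜ := fun ⟨y, hy, e⟩ => hy.2 (hs y hy.1.1 e)
  filter_upwards [h2.isClosed.isOpen_compl.mem_nhds h3,
    continuous_norm.continuousAt.eventually (gt_mem_nhds hr1)] with t ht ht' y hy e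
  by_contra hc
  exact ht ⟨y, ⟨⟨hy, by rw [e]; exact ht'.le⟩, hc⟩, e⟩

/-- **fibre Harnack inequality**, filter form -/
theorem fh' [T2Space M] (H : KP A) (hT : IsOpen T) (hol : HolV A T π) (cont : ContinuousOn π T)
    (subm : Crit A T π = ∅) (prop : ∀ r < (1 : ℝ), IsCompact {y | y ∈ T ∧ ‖π y‖ ≤ r})
    {x₀ : M} (hx₀ : x₀ ∈ T) (h1 : ‖π x₀‖ < 1)
    (conn : IsPreconnected {z | z ∈ T ∧ π z = π x₀}) (hO : O ∈ 𝓝 x₀) :
    ∃ C : ℝ, 0 ≤ C ∧ ∀ᶠ t in 𝓝 (π x₀), ∀ v, QP H T v → ∀ b : ℝ,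
      (∀ z ∈ O, z ∈ T → π z = t → v z ≤ b) → ∀ x ∈ T, π x = t → v x ≤ b + C := by
  have hF : ∀ t : Cn p, ‖t‖ < 1 → IsCompact {z | z ∈ T ∧ π z = t} := fun t ht =>
    fib_compact cont prop (isCompact_singleton (x := t))
      (singleton_subset_iff.2 (mem_ball_zero_iff.2 ht))
  have k1 := ep_conn (H := H) (T := T) (π := π) (t₀ := π x₀) conn
    (fun z hz => ep_loc hT hol subm hz.1 hz.2) (O := interior O) isOpen_interior
    ⟨x₀, mem_interior_iff_mem_nhds.2 hO, hx₀, rfl⟩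
  obtain ⟨U, hU, hs, θ, C, k2, k3, k4, k5⟩ := (hF _ h1).induction_on
    (p := fun S => ∃ U, IsOpen U ∧ S ⊆ U ∧ EP H T π (π x₀) (interior O) U)
    ⟨∅, isOpen_empty, subset_rfl, EP.of_subset (empty_subset _)⟩
    (fun _ _ hst ⟨U, h1, h2, h3⟩ => ⟨U, h1, hst.trans h2, h3⟩)
    (fun _ _ ⟨U, h1, h2, h3⟩ ⟨U', h1', h2', h3'⟩ =>
      ⟨U ∪ U', h1.union h1', union_subset_union h2 h2', h3.union h3'⟩)
    (fun z hz => by
      obtain ⟨N, hN, h⟩ := k1 z hz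
      exact ⟨interior N, mem_nhdsWithin_of_mem_nhds (interior_mem_nhds.2 hN), interior N,
        isOpen_interior, subset_rfl, h.trans (EP.of_subset interior_subset)⟩)
  refine ⟨C / θ, by positivity, ?_⟩
  filter_upwards [k5, ev_fib cont prop h1 hU fun y hy e => hs ⟨hy, e⟩,
    continuous_norm.continuousAt.eventually (gt_mem_nhds h1)] with t k5 k6 k7 v hv b hb x hx e
  obtain ⟨y, hy, hm⟩ := (hF t k7).exists_isMaxOn ⟨x, hx, e⟩ (hv.cont.mono fun y hy => hy.1)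
  have k8 : v x ≤ v y := hm ⟨hx, e⟩
  have k9 : 0 ≤ C / θ := by positivity
  rcases le_total (v y) b with h | h
  · linarith
  · have := k5 v hv b (v y) h (fun z hz e => hm ⟨hz, e⟩)
      (fun z hz e hz' => hb z (interior_subset hz') hz e) y hy.1 hy.2 (k6 y hy.1 hy.2)
    have k10 : v y - b ≤ C / θ := by rw [le_div_iff₀ k2]; linarith
    linarith

/-- **fibre Harnack inequality** -/
theorem fh [T2Space M] (H : KP A) (hT : IsOpen T) (hol : HolV A T π) (cont : ContinuousOn π T)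
    (subm : Crit A T π = ∅) (prop : ∀ r < (1 : ℝ), IsCompact {y | y ∈ T ∧ ‖π y‖ ≤ r})
    {x₀ : M} (hx₀ : x₀ ∈ T) (h1 : ‖π x₀‖ < 1)
    (conn : IsPreconnected {z | z ∈ T ∧ π z = π x₀}) (hO : O ∈ 𝓝 x₀) :
    ∃ C r : ℝ, 0 ≤ C ∧ 0 < r ∧ ∀ v, QP H T v → ∀ x ∈ T, ‖π x - π x₀‖ ≤ r → ∀ b : ℝ,
      (∀ z ∈ O ∩ T, π z = π x → v z ≤ b) → v x ≤ b + C := by
  obtain ⟨C, hC, h⟩ := fh' H hT hol cont subm prop hx₀ h1 conn hO
  obtain ⟨r, hr, h2⟩ := Metric.nhds_basis_closedBall.eventually_iff.1 h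
  exact ⟨C, r, hC, hr, fun v hv x hx hr' b hb => h2 (mem_closedBall_iff_norm.2 hr') v hv b
    (fun z h3 h4 => hb z ⟨h3, h4⟩) x hx rfl⟩

/-- the fibre Harnack inequality for the tubes of a `Tube` -/
theorem fh_tube [T2Space M] (H : KP A) {G : Type} [Group G] [MulAction G M]
    (𝒯 : Top.Tube A G p) {x : M} (hx : x ∈ 𝒯.M0) {x₀ : M} (hx₀ : x₀ ∈ 𝒯.T x) (hO : O ∈ 𝓝 x₀) :
    ∃ C : ℝ, 0 ≤ C ∧ ∀ᶠ y in 𝓝 x₀, ∀ v, QP H (𝒯.T x) v → ∀ b : ℝ,
      (∀ z ∈ O, z ∈ 𝒯.W y → v z ≤ b) → ∀ z ∈ 𝒯.W y, v z ≤ b + C := by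
  have h1 : ‖𝒯.π x x₀‖ < 1 := mem_ball_zero_iff.1 (𝒯.π_img x hx ▸ mem_image_of_mem _ hx₀)
  obtain ⟨C, hC, h⟩ := fh' H (𝒯.T_opn x hx) (𝒯.π_hol x hx) (𝒯.π_cont x hx) (𝒯.π_subm x hx)
    (𝒯.π_prop x hx) hx₀ h1 (𝒯.π_fib x hx x₀ hx₀ ▸ 𝒯.W_conn x₀ (𝒯.T_sub x hx hx₀)) hO
  have h2 := (𝒯.T_opn x hx).mem_nhds hx₀
  refine ⟨C, hC, ?_⟩
  filter_upwards [((𝒯.π_cont x hx).continuousAt h2).eventually h, h2] with y k1 k2 v hv b hb z hz
  rw [𝒯.π_fib x hx y k2] at hb hz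
  exact k1 v hv b (fun w h3 h4 h5 => hb w h3 ⟨h4, h5⟩) z hz.1 hz.2

end

end Crest.Agent.X261.En.Fh
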