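import Crest.Agent.X261.Pole.Plq
import Crest.Agent.X261.Two.UU

/-!
# Row 261, EN (helper54), file `Hol`: the standard pole families depend holomorphically on the centre

* `Xp C hG y` : the standard pole family as a total function of the centre;
* `hol_Xp : Two.Hol S.toDS (Xp C hG) (ball 0 1) 2`.
-/

set_option autoImplicit false
set_option linter.dupNamespace false

open Set Filter Topology Metric

namespace Crest.Agent.X261.En.HolF

open Crest.Agent.X261.Two Crest.Agent.X261.BT Crest.Agent.X261.Psh Crest.Agent.X261.Psh.Kis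
open Crest.Agent.X261.Pole Crest.Agent.X261.Pole.PCh
open Crest.Agent.R275.Geo
open Crest.Agent.R281.Kp_487 (KP pot)

noncomputable section

variable {n : ℕ} {M : Type} [TopologicalSpace M] {A : Atl n M} {p r : ℕ} {C : PCh A p r}
  {H : KP A}

/-- the barrier property along holomorphic discs -/
theorem mp' {S : DS M} (hG : Geo S H) {Γ : ℂ → Par p} (hΓ : Differentiable ℂ Γ)
    (hz : ∀ w : ℂ, ‖w‖ ≤ 1 → Γ w ∈ PO p) (V : ℂ → M → ℝ)
    (hV : S.JP V) (x : Cn p × Cn r) (hx : x ∈ PW p r)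
    (h : ∀ w : ℂ, ‖w‖ = 1 → V w (C.kap (Γ w) x) ≤ C.gam H (Γ w) x) :
    V 0 (C.kap (Γ 0) x) ≤ C.gam H (Γ 0) x := by
  set q : ℂ → Cn p × Cn r := fun w => ((Γ w).1 + (Γ w).2.1 x.1, x.2) with hq
  have hqm : ∀ w : ℂ, ‖w‖ ≤ 1 → q w ∈ (ball 0 2 ×ˢ ball 0 2 : Set (Cn p × Cn r)) := fun w hw =>
    mapsTo_par (x := (Γ w, x)) ⟨hz w hw, hx⟩
  have hqd : Differentiable ℂ q :=
    (hΓ.fst.add (hΓ.snd.fst.clm_apply (differentiable_const _))).prodMk (differentiable_const _)
  have hO : IsOpen (ball (0 : ℂ) 1 ×ˢ (A.e C.i).target) := isOpen_ball.prod (A.e C.i).open_target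
  have hc : ContinuousOn (fun t : ℂ × Cn n => pot H (V t.1) C.i t.2)
      (closedBall 0 1 ×ˢ (A.e C.i).target) := by
    refine ((H.sm C.i).continuousOn.comp continuousOn_snd fun t ht => ht.2).add ?_
    exact (hG.jc V hV).comp (f := fun t : ℂ × Cn n => (t.1, (A.e C.i).symm t.2))
      (continuousOn_fst.prodMk ((A.e C.i).continuousOn_symm.comp continuousOn_snd
        fun t ht => ht.2)) fun t ht => ⟨ht.1, mem_univ _⟩
  have h1 := isPsh_of_pshL hO (hc.mono (prod_mono ball_subset_closedBall subset_rfl))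
    (hG.jp V hV C.i)
  have h2 : IsPsh (ball (0 : ℂ) 1) fun w => ((pot H (V w) C.i (C.ψ (q w)) : ℝ) : EReal) :=
    Hol.comp_hol hO h1 (φ := fun w => (w, C.ψ (q w)))
      (differentiableOn_id.prodMk (C.hol.comp hqd.differentiableOn fun w hw =>
        hqm w (mem_ball_zero_iff.1 hw).le))
      fun w hw => ⟨hw, C.maps (hqm w (mem_ball_zero_iff.1 hw).le)⟩
  have h3 : IsPsh (ball (0 : ℂ) 1) fun w => (((Γ w).2.2.re : ℝ) : EReal) :=
    Hol.isPsh_re (H := fun w : ℂ => (Γ w).2.2) hΓ.snd.snd.differentiableOn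
  have h4 : ContinuousOn (fun w => pot H (V w) C.i (C.ψ (q w)) + (Γ w).2.2.re)
      (closedBall (0 : ℂ) 1) := by
    refine ContinuousOn.add (hc.comp (f := fun w => (w, C.ψ (q w))) (continuousOn_id.prodMk
      (C.hol.continuousOn.comp hqd.continuous.continuousOn fun w hw =>
        hqm w (mem_closedBall_zero_iff.1 hw))) fun w hw =>
          ⟨hw, C.maps (hqm w (mem_closedBall_zero_iff.1 hw))⟩)
      (Complex.continuous_re.comp hΓ.snd.snd.continuous).continuousOn
  have h5 := IsPsh.max1 (isCompact_closedBall (0 : ℂ) 1) (usc_coe h4) (c := 0)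
    (by rw [interior_closedBall _ one_ne_zero]
        exact (h2.add h3).congr fun w _ => (EReal.coe_add _ _).symm)
    (fun w hw hw' => by
      rw [interior_closedBall _ one_ne_zero, mem_ball_zero_iff, not_lt] at hw'
      have := h w (le_antisymm (mem_closedBall_zero_iff.1 hw) hw')
      rw [EReal.coe_le_coe_iff, pot_eq]
      simp only [PCh.kap, PCh.gam] at this
      linarith) 0 (mem_closedBall_self zero_le_one)
  rw [EReal.coe_le_coe_iff, pot_eq] at h5
  simp only [hq] at h5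
  simp only [PCh.kap, PCh.gam]
  linarith

variable (C) in
/-- the standard pole family as a total function of the centre -/
def Xp {S : ES M} (hG : Geo S.toDS H) (y : Cn p) : PF S.ls :=
  if h : ‖y‖ ≤ 1 then C.pf1 hG h else C.pf1 hG (y := 0) (by simp)

variable {S : ES M} (hG : Geo S.toDS H)

theorem Xp_eq {y : Cn p} (hy : ‖y‖ ≤ 1) : Xp C hG y = C.pf1 hG hy := dif_pos hy

theorem Xp_F {y : Cn p} (hy : ‖y‖ ≤ 1) (s h : ℝ) :
    (Xp C hG y).F s h = C.F H y (rad s • 1) h := by rw [Xp_eq hG hy]; rfl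

theorem Xp_F' {y : Cn p} (hy : ‖y‖ ≤ 1) :
    (Xp C hG y).F = fun s h => C.F H y (rad s • 1) h := by rw [Xp_eq hG hy]; rfl

theorem Xp_s0 (y : Cn p) : (Xp C hG y).s0 = 2 := by
  unfold Xp
  split_ifs <;> rfl

/-- the parameter map -/
def par (e : Cn p × ℂ × ℂ) : Par p := (e.1, Complex.exp (-e.2.1 / 2) • 1, e.2.2)

theorem par_diff : Differentiable ℂ (par (p := p)) := by
  unfold par
  fun_prop

theorem par_mem {e : Cn p × ℂ × ℂ}
    (he : e ∈ ball (0 : Cn p) 1 ×ˢ strip (Ioi 2) ×ˢ (univ : Set ℂ)) : par e ∈ PO p := by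
  have h1 := PO_rad (std' (mem_ball_zero_iff.1 he.1).le) (s := e.2.1.re) (le_of_lt he.2.1)
  rw [norm_smul, ← norm_cexp, Complex.norm_real, norm_norm] at h1
  change ‖e.1‖ + ‖Complex.exp (-e.2.1 / 2) • (1 : Cn p →L[ℂ] Cn p)‖ < 2
  rwa [norm_smul]

theorem isOpen_O : IsOpen (ball (0 : Cn p) 1 ×ˢ strip (Ioi 2) ×ˢ (univ : Set ℂ)) :=
  isOpen_ball.prod ((isOpen_strip isOpen_Ioi).prod isOpen_univ)

theorem fam_par {R : DS M} (hG : Geo R H) :
    Two.Fam R (ball (0 : Cn p) 1 ×ˢ strip (Ioi 2) ×ˢ (univ : Set ℂ)) fun e =>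
      Feas R 0 (PW p r) (C.kap (par e)) (C.gam H (par e)) := by
  have hc : Continuous fun z : (Cn p × ℂ × ℂ) × (Cn p × Cn r) => (par z.1, z.2) :=
    (par_diff.continuous.comp continuous_fst).prodMk continuous_snd
  have hm : MapsTo (fun z : (Cn p × ℂ × ℂ) × (Cn p × Cn r) => (par z.1, z.2))
      ((ball (0 : Cn p) 1 ×ˢ strip (Ioi 2) ×ˢ (univ : Set ℂ)) ×ˢ PW p r) (PO p ×ˢ PW p r) :=
    fun z hz => ⟨par_mem hz.1, hz.2⟩
  have h1 := C.contOn_kap.comp hc.continuousOn hm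
  have h2 := (C.contOn_gam H).comp hc.continuousOn hm
  refine fam_of_con R isOpen_O R.zero_mem isCompact_PW h1 h2 fun z v hz V hV x hx h => ?_
  have hd : Differentiable ℂ fun w : ℂ => par (z + w • v) :=
    par_diff.comp (f := fun w : ℂ => z + w • v) (by fun_prop)
  have := mp' (C := C) hG hd (fun w hw => par_mem (hz w hw)) V hV x hx h
  rwa [zero_smul, add_zero] at this

theorem hol_Xp : Two.Hol S.toDS (Xp C hG) (ball 0 1) 2 := by
  refine ⟨fun x _ => Xp_s0 hG x, Two.Fam.congr (fam_par (C := C) hG) isOpen_O fun e he => ?_⟩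
  ext f
  rw [mem_ofPred_eq, Xp_F hG (mem_ball_zero_iff.1 he.1).le, ← F_cexp]
  exact ⟨fun hf => ⟨hf.1, hf.2.2⟩, fun hf => ⟨hf.1, S.nonpos f hf.1, hf.2⟩⟩

theorem cmp (S : ES M) : Cmp S.toDS S.ls := ⟨rfl, rfl⟩

end

end Crest.Agent.X261.En.HolF
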